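import Crest.Agent.X212.Br55.Defs

/-!
# Row 212, layer G (helper33): the two lines of a lens arc have the same square
-/

set_option autoImplicit false
set_option linter.unusedSectionVars false
noncomputable section
open Set Function
open Crest.Agent.R208.F (Ext)

namespace Crest.Agent.X212.Br33
open M G75 Wd38 Nm96 Cyl58 Br55 Dr59
open Line51 hiding Ord
open Rod53 (Z2)

variable {Γ : Nm} {κ lam : Type} [Fintype κ] [Fintype lam] [DecidableEq lam] {C : Cx Γ}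

/-- the square of the curvature form of a line -/
abbrev sqr (X : Mf 4) (o : X.M → Ext X.E) (p : X.M → Matrix lam lam ℂ) : ℝ :=
  ip X.I o (Ln.F X.I ⟨p, 0⟩) (Ln.F X.I ⟨p, 0⟩)

theorem ip_sq {X : Mf 4} [CompactSpace X.M] {o F F' : X.M → Ext X.E} {U V : Set X.M} (ho : Int54.Ori X.I o)
    (hF : Cl X.I 2 univ F) (hF' : Cl X.I 2 univ F') (hV : IsOpen V) (s : Vᶜ ⊆ U) (k : EqOn F' F V)
    (e : Ex X.I U (F' + F)) : ip X.I o F' F' = ip X.I o F F := by
  have c : ∀ {F : X.M → Ext X.E}, Cl X.I 2 univ F → Cs X.I 2 univ F := fun h => ⟨h, .of_compactSpace _, subset_univ _⟩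
  have := (Cs.mk (hF'.sub hF) (.of_compactSpace _) ((closure_minimal (fun x hx q => mem_support.1 hx (sub_eq_zero.2 (k q)))
    hV.isClosed_compl).trans s)).ip_ex ho e
  rw [(c (hF'.sub hF)).ip_add ho hF'.sm hF.sm, ← ip_comm (hF'.sub hF).dg F', ← ip_comm (hF'.sub hF).dg F,
    (c hF').ip_sub ho hF'.sm hF.sm, (c hF).ip_sub ho hF'.sm hF.sm, ip_comm hF.dg F'] at this
  linarith

/-- lines whose orders add up to a character are dual on the half disc -/
theorem ex_add {Λ : NmL Γ} {L : LCx C Λ} {w : Shp Γ} {hw : w.OK} {X : TP V4} {R : Rz C hw X} {n n' : Wd38.Wt}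
    (W : WL L R n lam) (W' : WL L R n' lam) {x y : ℤ} (h : w.Rg x y) {η : Z2}
    (e : ∀ j, x ≤ j → j ≤ y → dot η (w.bw x y j) = n.bn x y j + n'.bn x y j)
    (o' : IsOpen (R.D x y (Iio ((y - x) / 2)))) :
    Ex X.P.I (R.D x y (Iio ((y - x) / 2))) (Ln.F X.P.I ⟨W'.p, 0⟩ + Ln.F X.P.I ⟨W.p, 0⟩) := by
  have o := (C.T (w.kn x)).isOpen_disc (v := w.v x y) (c := cc x y) (isOpen_Iio (a := ((y : ℝ) - x) / 2))
  have s : _ ⊆ C.tm ⁻¹' II x y := fun p (hp : p ∈ (C.T (w.kn x)).disc (w.v x y) (cc x y) (Iio ((y - x) / 2))) =>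
    C.tm_disc hp fun s hs => by linarith [mem_Iio.1 hs]
  have t := ((W.tl h).mono s).dual.mul (tl_chi (m := wz w n x y + wz w n' x y) (η := η) (fun p hp => hp.1)
    fun p hp _ => by
      rw [wz, wz, ← wm_add]
      exact rep_wd (fun j a b => by rw [h.bz_eq hw]; exact e j a b) (II_sub _ _ (s hp)))
  rw [neg_add_cancel_left] at t
  obtain ⟨u, hu, -⟩ := t.uni o ((W'.tl h).mono s)
  have k := hu.comp (mp_T (R.B h).symm (A := R.D x y (Iio ((y - x) / 2))) fun z hz => ⟨R.D_II hz, by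
    obtain ⟨_, p, a, b, rfl⟩ := hz
    rwa [(R.B h).symm_apply a]⟩)
  have a := W.ln.mono (subset_univ (R.D x y (Iio ((y - x) / 2))))
  refine (Uni.ex_F (L := Ln.dual ⟨W.p, 0⟩) (L' := ⟨W'.p, 0⟩) o' ⟨k.sm, fun z hz => ?_⟩ a.dual
    (W'.ln.mono (subset_univ _))).congr fun z hz => ?_
  · have := k.iso z hz
    simp only [(R.B h).apply_symm (R.D_II hz)] at this
    exact this
  · rw [Pi.sub_apply, a.F_dual o' hz, sub_neg_eq_add]; rfl

theorem ords {Λ : NmL Γ} {w : Shp Γ} {n : Wd38.Wt} {x j : ℤ} {k : Γ.ι} {μ : ℤ × ℤ} (h1 : w.l < x - 1) (h2 : x + 4 < w.r)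
    (h3 : ∀ j, x - 1 ≤ j → j ≤ x + 4 → w.s j = .rod (k, lrd x j)) (o : n.OK w Λ) (u : n.nl (x - 1) = 1)
    (u' : n.nl (x + 3) = 1) (a : x ≤ j) (b : j ≤ x + 3) : dot (0, 1) (w.bw x (x + 3) j) =
      (cp n μ).bn x (x + 3) j + (cp (fl (.lA x (x + 3)) n) μ).bn x (x + 3) j := by
  rcases a.eq_or_lt with e | a
  · subst e
    have : n.nr x = 1 := by
      rw [← o.rod x _ (by omega) (by omega) (h3 x (by omega) (by omega)), ← o.eq x (by omega) (by omega) (by
        rw [Shp.lf, Shp.rt, h3 _ (by omega) (by omega), h3 _ (by omega) (by omega)]; simp [Sl.l, Sl.r, lrd]),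
        ← o.rod _ _ h1 (by omega) (h3 _ (by omega) (by omega)), u]
    rw [Shp.bw_le le_rfl, bn_le le_rfl, bn_le le_rfl, h3 x (by omega) (by omega)]
    simp [dot, Sl.r, lrd, fl, cp, Bs.lo, this]
  · rw [Shp.bw_mid a b, bn_mid a b, bn_mid a b, h3 j (by omega) (by omega)]
    rcases b.eq_or_lt with rfl | b
    · simp [dot, Sl.l, lrd, fl, cp, Bs.hi, u']
    · simp [dot, Sl.l, lrd, fl, cp, Bs.lo, Bs.hi, a, b, a.not_ge, show j ≤ x + 2 by omega]

variable {G : Tab C.kd κ} {P : Pm Γ} (L : LP C G P lam)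

theorem lv {w : Shp Γ} {ls : Finset Bs} (h : (f0 w ls).OK P) {n} (hn : (f0 w ls).LOK P n) (μ) (a : UW w ls)
    (ha : IsL ls a.1) (hn' : (f0 w ls).LOK P (fl a.1.b n)) :
    sqr (C.X h.w).mf (um G h.w ls).o (L.N h hn' μ).p = sqr (C.X h.w).mf (um G h.w ls).o (L.N h hn μ).p := by
  have := (um G h.w ls).cpt
  have k := L.out h hn μ a ha hn'
  have T := Sid48.trc_mark (C.rz h.w) G (Subtype.val : UW w ls → Wl) (fun a => a.2.1.1) (σ := {a})
    fun b e => e ▸ Sid48.utw_nil ha.1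
  have e : ((um G h.w ls).sys.w a).sd false = Sid48.sd (C.rz h.w) a.1.b false := Set.ext fun z => T.sd a rfl _ z
  have o := ((um G h.w ls).sys.w a).op_sd false
  refine ip_sq (U := ((um G h.w ls).sys.w a).sd false) (um G h.w ls).ori ((L.N h hn μ).ok.cl_F isOpen_univ)
    ((L.N h hn' μ).ok.cl_F isOpen_univ) k.op
    (fun z q => (Wall.compl_subset _ true fun u => q (.inl u)).resolve_right fun u => q (.inr u))
    (fun z q => ((L.N h hn μ).ok.mono (subset_univ _)).F_congr k.op (fun y u => ?_) (fun _ _ => rfl) q) ?_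
  · have := k.uni.iso y u
    exact this.tgt.symm.trans (by rw [this.prj_src.herm, this.idem])
  rw [e] at o ⊢
  rw [L.p, L.p]
  have u := hn.ls _ ha.2
  have r := a.2.1.1
  obtain ⟨x, e', h1, h2, h3⟩ := h.ls _ ha.2
  revert hn'
  rw [e'] at o r u ⊢
  intro hn' _
  refine ex_add _ _ r.1 (η := (0, 1)) (fun j a b => ?_) o
  exact ords h1 h2 h3 hn.ok u.1 u.2.1 a b

end Crest.Agent.X212.Br33
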