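import Crest.Agent.X212.Br55.Defs

/-!
# Row 212, layer G (helper33): good cells satisfy the numerical hypothesis (BR-NUM)
-/

set_option autoImplicit false
set_option linter.unusedSectionVars false
noncomputable section
open Set Function Filter

namespace Crest.Agent.X212.Br33
open M G75 Wd38 Nm96 Cyl58 Br55
open Sid48 hiding chg

variable {Γ : Nm} {κ lam : Type} [Fintype κ] [Fintype lam] [DecidableEq lam]
  {C : Cx Γ} {G : Tab C.kd κ} {P : Pm Γ} {L : LP C G P lam}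

theorem numC {F : Fm Γ} {n : Wd38.Wt} {σ B : Finset Bs} (h : F.NumC P n σ) (hB : B ⊆ σ) (pin : ∀ a ∈ B, a.pin) :
    ∃ (ch : Bs → Bool → ℝ) (gL gR : ℝ), 5 < gL + gR + ∑ a ∈ B, (ch a true + ch a false) - 2 * F.nd B ∧
    ∀ η, B = ∅ ∨ (∃ a ∈ B, Adj B η a) → (B.Nonempty → F.chg B η ch gL gR ≤ 4) ∧ (F.Fst B η ∨
      (¬F.Lst B η ∧ F.BdM n σ B η (F.chg B η ch gL gR)) ∨
      (F.Lst B η ∧ F.BdL P n σ B η (F.chg B η ch gL gR))) := by
  rcases B.eq_empty_or_nonempty with rfl | k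
  · exact ⟨0, 6, 0, by simp [Fm.nd]; norm_num, fun η _ => ⟨fun q => absurd q (by simp), .inl fun _ q => absurd q (by simp)⟩⟩
  · obtain ⟨ch, gL, gR, h1, h2⟩ := h B hB pin k
    exact ⟨ch, gL, gR, h1, fun η q => let u := h2 η (q.resolve_left k.ne_empty); ⟨fun _ => u.1, u.2⟩⟩

section pres
variable {D : Dt Γ} {h : D.OK P} {μ : ℤ × ℤ} {i : D.L} {c : Finset D.A} {π : Reg D.A} {n : Wd38.Wt} {η : Bs → Bool}
  (p : Pres L h μ i c π n η)
include p

theorem mem_U (y) : y ∈ (L.scn h μ).M.sys.U π ↔ ∀ a ∈ c, y ∈ ((L.scn h μ).M.sys.w a).sd (η a.1.b) := by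
  obtain ⟨z, rfl⟩ := p.trc.bij.2 y
  rw [← p.U]
  exact p.trc.bij.1.mem_set_image.trans
    (Finset.forall_mem_image.trans (forall₂_congr fun a q => (p.trc.sd a (.inl q) _ z).symm))

theorem mem_iff {x j} (hx : ∀ a ∈ c, x ∈ ((L.scn h μ).M.sys.w a).sd (a.1.b.side j)) :
    x ∈ (L.scn h μ).M.sys.U π ↔ InV (c.image fun a => a.1.b) η j :=
  (mem_U p x).trans ((forall₂_congr fun a q => ⟨Wall.sd_inj _ (hx a q), fun e => e ▸ hx a q⟩).trans
    (Finset.forall_mem_image (p := fun b : Bs => b.side j = η b)).symm)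

theorem ex_pt {j} (h1 : D.F.w.l ≤ j) (h2 : j ≤ D.F.w.r + 1) :
    ∃ x, ∀ a ∈ c, x ∈ ((L.scn h μ).M.sys.w a).sd (a.1.b.side j) :=
  let ⟨z, k⟩ := exists_pt (C.rz h.h0.w) h1 h2
  ⟨p.Φ z, fun a q => (p.trc.sd a (.inl q) _ z).2 (k _ (p.trc.ok a (.inl q)))⟩

theorem chg_eq (ch : Bs → Bool → ℝ) : Sid48.chg (fun a : D.A => ch a.1.b) π =
    ∑ b ∈ c.image (fun a => a.1.b) with Adj (c.image fun a => a.1.b) η b, ch b (η b) := by
  rw [Finset.sum_filter, Finset.sum_image p.inj, Sid48.chg, ← Finset.sum_subset (Finset.subset_univ c) fun a _ q => by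
    rw [Option.eq_none_iff_forall_ne_some.2 fun s e => q ((p.sd a s).1 e).1]; rfl]
  refine Finset.sum_congr rfl fun a q => ?_
  split_ifs with k
  · rw [(p.sd a _).2 ⟨q, k, rfl⟩]; rfl
  · rw [Option.eq_none_iff_forall_ne_some.2 fun s e => k ((p.sd a s).1 e).2.1]; rfl

theorem nb (tr : NbT lam) {β sg l2} (k : NbX (C.X h.h0.w).mf (-(C.rz h.h0.w).O) p.W.p
    (pc (C.rz h.h0.w) (c.image fun a => a.1.b) η) β sg l2) : (L.scn h μ).Nb i ((L.scn h μ).M.sys.U π) β sg l2 :=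
  p.U ▸ tr _ _ p.Φ _ _ p.u _ β sg l2 p.pos.neg ((L.scn h μ).N i).ok p.uni k

end pres

variable (L)

/-- **BR-NUM** -/
theorem numStmt {μ : ℕ → ℤ × ℤ} {mR : ℤ} (hμ : ∀ k, (μ k).2 = mR) (ok : OkStmt L) (pr : PresStmt L)
    (nM : NbM L.L lam) (nL : NbL L.L lam P.M mR) (nF : NbF L.L lam μ) (nT : NbT lam) (ab : AbStmt L)
    (hg : HgStmt L) : NumStmt L μ := by
  classical
  intro D h i σ gc hK
  obtain ⟨ts, pp, tn, tor⟩ := gc.tor
  rw [Finset.map_eq_image, Finset.image_image] at tor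
  replace tor : D.F.Tor P _ (σ.image fun a => a.1.b) := tor
  refine eventually_all.2 fun c => ?_
  by_cases q : c ⊆ σ ∧ ∀ a ∈ c, a.1.b.pin
  swap
  · exact .of_forall fun _ a b => absurd ⟨a, b⟩ q
  have := fun k => (L.scn h (μ k)).M.con
  have pr' := fun k π => pr h (μ k) i σ c π ts q.1 q.2 gc.inj pp (fun a u => tn _ (Finset.mem_map_of_mem _ u)) tor
  have cl : (L.scn h (μ 0)).M.sys.Cell (↑c : Set D.A) := ((ok h _).cell i σ hK).1.mono fun a u => .inl (q.1 u)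
  obtain ⟨x, hx⟩ := exists_off cl
  obtain ⟨π₀, h₀, -⟩ := Sys.exists_piece cl hx
  obtain ⟨η₀, ⟨p₀⟩, -, -, nd⟩ := pr' 0 π₀ h₀
  have := h.ok.w.lt
  obtain ⟨xL, hL⟩ := ex_pt p₀ le_rfl (by omega)
  obtain ⟨xR, hR⟩ := ex_pt p₀ (j := D.F.w.r + 1) (by omega) le_rfl
  have off : ∀ {x j}, (∀ a ∈ c, x ∈ ((L.scn h (μ 0)).M.sys.w a).sd (a.1.b.side j)) →
      x ∉ (L.scn h (μ 0)).M.sys.cores (↑c : Set D.A) := fun k e => let ⟨a, u, e⟩ := mem_iUnion₂.1 e; e _ (k a u)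
  obtain ⟨ch, gL, gR, h5, hb⟩ := numC tor.num (Finset.image_subset_image q.1) fun a u => (p₀.tp.ok a u).2
  set g := fun π => Sid48.chg (fun a : D.A => ch a.1.b) π + (if xL ∈ (L.scn h (μ 0)).M.sys.U π then gL else 0) +
    if xR ∈ (L.scn h (μ 0)).M.sys.U π then gR else 0 with hg'
  have ge : ∀ {k π η}, Pres L h (μ k) i c π (acts D.F.w ts i.1) η →
      D.F.chg (c.image fun a => a.1.b) η ch gL gR = g π := fun p => by
    rw [hg', Fm.chg, ← chg_eq p]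
    exact congrArg₂ _ (congrArg _ (if_congr (mem_iff p hL).symm rfl rfl)) (if_congr (mem_iff p hR).symm rfl rfl)
  suffices ∀ π, ∀ᶠ k in atTop, (L.scn h (μ 0)).M.sys.Piece (↑c : Set D.A) π → (L.scn h (μ k)).Bd i σ c π (g π) by
    filter_upwards [eventually_all.2 this] with k hk _ _
    refine numAt_of_chg (L.scn h (μ k)) i σ c cl _ gL gR _ (off hL) (off hR) (fun _ _ => Iff.rfl) (fun _ _ => Iff.rfl) hk
      (fun u π v => ?_) (Nat.cast_le.2 nd) ?_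
    · obtain ⟨η, ⟨p⟩, -⟩ := pr' 0 π v
      exact (ge p).ge.trans ((hb η p.tp.ne).1 (u.image _))
    · rw [Finset.sum_image p₀.inj] at h5
      simp only [add_comm (ch _ true)] at h5
      exact (show _ < gL + gR + ∑ a ∈ c, (ch a.1.b false + ch a.1.b true) by linarith)
  intro π
  by_cases v : (L.scn h (μ 0)).M.sys.Piece (↑c : Set D.A) π
  swap
  · exact .of_forall fun _ u => absurd u v
  by_cases f : xL ∈ (L.scn h (μ 0)).M.sys.U π
  · obtain ⟨η, ⟨p⟩, -⟩ := pr' 0 π v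
    filter_upwards [nF D.F h.h0.w (acts D.F.w ts i.1) _ η (g π + 2 * (L.scn h (μ 0)).nh π) p.tp ((mem_iff p hL).1 f)]
      with k hk _
    obtain ⟨η', ⟨p'⟩, -⟩ := pr' k π v
    obtain ⟨β, sg, l2, k1, k2⟩ := hk p'.W
    obtain ⟨y, hy⟩ := v.toIsReg.nonempty
    have e : ∀ b ∈ c.image fun a => a.1.b, η b = η' b := Finset.forall_mem_image.2 fun a u =>
      Wall.sd_inj _ ((mem_U p y).1 hy a u) ((mem_U p' y).1 hy a u)
    rw [show pc _ _ η = pc _ _ η' from Set.ext fun z => forall₂_congr fun b u => by rw [e b u]] at k1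
    refine bd_of_lv (nb p' nT k1) (Nat.zero_le _) (h₀ := (L.scn h (μ 0)).nh π) le_rfl fun l u => ?_
    unfold G75.Wt
    push_cast
    linarith [u.1]
  refine .of_forall fun k _ => ?_
  obtain ⟨η, ⟨p⟩, e1, e2, -⟩ := pr' k π v
  have f' := mt (mem_iff p hL).2 f
  have A : ∀ β sg l2, (D.F.Hg (acts D.F.w ts i.1) (c.image fun a => a.1.b) η ∨ ∀ n' l,
      D.F.AbC (acts D.F.w ts i.1) (c.image fun a => a.1.b) η n' l → G75.Lv sg l2 l →
        g π ≤ G75.Wt β sg l2 ((L.scn h (μ k)).nm σ π) ((L.scn h (μ k)).nh π) l) → (L.scn h (μ k)).Ab i σ c π fun l =>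
      G75.Lv sg l2 l → g π ≤ G75.Wt β sg l2 ((L.scn h (μ k)).nm σ π) ((L.scn h (μ k)).nh π) l := fun β sg l2 u => by
    have big : ∀ l, (g π + 3 * β - (l2 - sg) / 2 + 2 * (L.scn h (μ k)).nh π) / 6 ≤ l →
        g π ≤ G75.Wt β sg l2 ((L.scn h (μ k)).nm σ π) ((L.scn h (μ k)).nh π) l := fun l w => by
      unfold G75.Wt
      linarith [Nat.cast_nonneg (α := ℝ) ((L.scn h (μ k)).nm σ π)]
    rcases u with u | u
    · exact ab_mono (hg h (μ k) i σ c π _ η _ (ok h _) hK q.1 v p f' u) fun l w _ => big l w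
    · exact ab_mono (ab h (μ k) i σ c π _ η _ (ok h _) hK q.1 v p f') fun l w =>
        w.elim (fun w _ => big l w) fun ⟨n', w⟩ => u n' l w
  rcases ((hb η p.tp.ne).2.resolve_left f') with ⟨l, b1, b2⟩ | ⟨l, b1, b2⟩
  · rw [ge p] at b1 b2
    refine ⟨_, _, _, nb p nT (nM D.F _ _ p.W _ η p.tp f' l), ?_, A _ _ _ ?_⟩ <;> rw [e1, e2]
    exacts [b1, b2]
  · obtain ⟨β, sg, l2, k1, k2⟩ := nL D.F _ _ p.W _ η (hμ k) p.tp f' l
    rw [ge p] at b1 b2
    have m1 := le_max_left (β - (1 + D.F.tot (c.image fun a => a.1.b) η lp (acts D.F.w ts i.1))) 0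
    have m2 := le_max_right (β - (1 + D.F.tot (c.image fun a => a.1.b) η lp (acts D.F.w ts i.1))) 0
    replace k2 : P.M + 3 * max (β - (1 + D.F.tot _ η lp (acts D.F.w ts i.1))) 0 ≤
      (l2 - sg - (D.F.tot _ η lq (acts D.F.w ts i.1) - D.F.tot _ η lg (acts D.F.w ts i.1))) / 2 := k2
    refine ⟨β, sg, l2, nb p nT k1, fun l _ w => ?_, A _ _ _ (b2.imp_right fun u n' l w _ => ?_)⟩
    · have := b1 (l - 3 * (β - (1 + D.F.tot (c.image fun a => a.1.b) η lp (acts D.F.w ts i.1))) / 8)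
        (by rw [e1, e2] at w; unfold G75.Dl at w; unfold Fm.ix dl; linarith)
      rw [e1, e2]
      unfold Fm.wt wg at this
      unfold G75.Wt
      linarith
    · have := u n' l w
      rw [e1, e2]
      unfold Fm.wt wg at this
      unfold G75.Wt
      linarith

end Crest.Agent.X212.Br33
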