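import Crest.Agent.X212.Br33.Lv

/-!
# Row 212, layer G (helper33): the scene of a finite set of cells is admissible (BR-OK)
-/

set_option autoImplicit false
set_option linter.unusedSectionVars false
noncomputable section
open Set Function

namespace Crest.Agent.X212.Br33
open M G75 Wd38 Nm96 Cyl58 Br55
open Sid48 hiding chg

variable {Γ : Nm} {κ lam : Type} [Fintype κ] [Fintype lam] [DecidableEq lam]

/-! ### untwisting -/

theorem utw_pops {F : Fm Γ} : ∀ {ts : List Tw} {S : Finset Wl} {a : Wl},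
    F.Pops ts S → a ∈ S → (pops ts a).tw = [] → Utw ts a
  | [], _, _, _, _, e => utw_nil e
  | t :: _, _, a, h, ha, e => by
    have ih := utw_pops h.2.2.2.2 (Finset.mem_image_of_mem _ ha) e
    by_cases k : a.tw.head? = some t
    · obtain ⟨b, _ | ⟨t', l⟩⟩ := a
      · cases k
      · cases Option.some.inj k
        rw [pop, if_pos k] at ih
        exact .use t ih
    · rw [pop, if_neg k] at ih
      exact .clr ih ((h.2.2.2.1 a ha).resolve_left k)

theorem pops_mem {F : Fm Γ} {t : Tw} : ∀ {ts : List Tw} {S : Finset Wl}, F.Pops ts S → t ∈ ts →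
    t.OK F.w ∧ (∀ b ∈ F.fz, t.Off b) ∧ Away F.ls t
  | _ :: _, _, h, k => by
    rcases List.mem_cons.1 k with rfl | k
    exacts [⟨h.1, h.2.1, h.2.2.1⟩, pops_mem h.2.2.2.2 k]

theorem utw_off {a : Wl} (e : a.tw = []) : ∀ {ts : List Tw}, (∀ t ∈ ts, t.Off a.b) → Utw ts a
  | [], _ => utw_nil e
  | t :: _, h => .clr (utw_off e fun t' k => h t' (List.mem_cons_of_mem _ k))
      ⟨h t List.mem_cons_self, fun _ k => by rw [e] at k; cases k⟩

theorem utw_self (b : Bs) : ∀ l : List Tw, Utw l ⟨b, l⟩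
  | [] => .nil b
  | t :: l => .use t (utw_self b l)

theorem off_of_away {ls : Finset Bs} {t : Tw} {l : Bs} (h : Away ls t) (hl : l ∈ ls) : t.Off l :=
  (h l hl).imp (fun _ => by omega) fun _ => .inl (by omega)

/-! ### separated and crossing walls -/

/-- `a` lies outside the arc `l` -/
def Sep (a l : Bs) : Prop := a.hi < l.lo ∨ l.hi < a.lo ∨ (a.arc ∧ a.lo < l.lo ∧ l.hi < a.hi)

theorem Sep.far {a l : Bs} (h : Sep a l) (hl : l.arc) : a.Far l := by unfold Bs.Far; unfold Sep at h; tauto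

theorem Sep.sw {a l : Bs} (h : Sep a l) (hl : l.arc) (ha : a.lo ≤ a.hi) : sw l a = true :=
  Bool.eq_true_of_not_eq_false fun e => by
    have := (side_arc hl).1 e
    rcases h with h | h | ⟨-, h, -⟩ <;> omega

theorem not_far_self {a : Bs} (h : a.lo ≤ a.hi) : ¬a.Far a := by
  rintro (k | k | ⟨-, k, -⟩ | ⟨-, k, -⟩) <;> omega

section foot
variable {C : Cx Γ} {w : Shp Γ} {hw : w.OK} {X : TP V4} {R : Rz C hw X} {b : Bs} {z : X.P.M}

theorem foot_lo (hb : b.OK w) (h : Ax R b.lo (b.lo + 1 / 2) z) : z ∈ R.bd b := by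
  by_cases q : b.arc
  · have r := OK_rg hb q
    rw [Rz.bd, (R.arc_eq q).1, (R.arc_eq q).2]
    refine h.mem_D r le_rfl r.lt ?_
    rw [abs_of_nonpos (by unfold cc; linarith [cast_lt r.lt])]
    unfold cc
    exact ⟨by linarith, by linarith⟩
  · cases b
    iterate 3 exact (q trivial).elim
    all_goals exact (Rz.half_II _).ge (h.time ▸ half_mem _)

theorem foot_hi (hb : b.OK w) (q : b.arc) (h : Ax R (b.hi - 1) (b.hi + 1 / 2) z) : z ∈ R.bd b := by
  have r := OK_rg hb q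
  have := r.lt
  rw [Rz.bd, (R.arc_eq q).1, (R.arc_eq q).2]
  refine h.mem_D r (by omega) (by omega) ?_
  rw [abs_of_nonneg (by unfold cc; linarith [cast_lt r.lt])]
  unfold cc
  exact ⟨by linarith, by linarith⟩

variable (R)

theorem ex_lo (hb : b.OK w) : ∃ z, Ax R b.lo (b.lo + 1 / 2) z :=
  exists_ax R (OK_lo hb).1 (OK_lo hb).2 ⟨by linarith, by push_cast; linarith⟩ (i := b.lo) ⟨by linarith, by linarith⟩

theorem ex_hi (hb : b.OK w) (q : b.arc) : ∃ z, Ax R (b.hi - 1) (b.hi + 1 / 2) z :=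
  have r := OK_rg hb q
  exists_ax R (by have := r.lo; have := r.lt; omega) (by have := r.hi; omega)
    ⟨by push_cast; linarith, by push_cast; linarith⟩ (i := b.hi) ⟨by linarith, by linarith⟩

variable {R} {A : Type} {S : Sys X.P.M A} {Φ : X.P.M → X.P.M} {B : A → Bs} {σ : Set A}
  (T : Trc R S Φ B σ) {p q : A} (hp : p ∈ σ) (hq : q ∈ σ) {x : ℤ} (e : B q = .lA x (x + 3))
include T hp hq e

theorem crs_not_cmp (c : Crs (B p) (B q)) (n : ¬((B p).arc ∧ (B p).lo = x + 1 ∧ (B p).hi = x + 2)) :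
    ¬S.Cmp p q := by
  have a : (B q).arc := e ▸ trivial
  have l : (B q).lo = x := e ▸ rfl
  have u : (B q).hi = x + 3 := e ▸ rfl
  have cm : ∀ z, z ∈ R.bd (B p) → z ∈ R.bd (B q) → ¬S.Cmp p q := fun z k k' m =>
    disjoint_left.1 m ((T.bd p hp z).2 k) ((T.bd q hq z).2 k')
  unfold Crs at c
  by_cases a' : (B p).arc
  · have := (OK_rg (T.ok p hp) a').lt
    by_cases k : (B p).lo = (B q).lo
    · obtain ⟨z, hz⟩ := ex_lo R (T.ok p hp)
      exact cm z (foot_lo (T.ok p hp) hz) (foot_lo (T.ok q hq) (k ▸ hz))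
    by_cases k' : (B p).hi = (B q).hi
    · obtain ⟨z, hz⟩ := ex_hi R (T.ok p hp) a'
      exact cm z (foot_hi (T.ok p hp) a' hz) (foot_hi (T.ok q hq) a (k' ▸ hz))
    refine fun m => T.not_cmp hq hp a' ⟨by omega, by omega⟩ ⟨by omega, by omega⟩ (fun f => ?_) m.symm
    have := (side_arc a).symm.trans (f ▸ side_arc a : sw (B q) (B p) = false ↔ _)
    have n' : ¬((B p).lo = x + 1 ∧ (B p).hi = x + 2) := fun k => n ⟨a', k⟩
    omega
  · have := lo_eq_hi a'
    refine T.not_cmp hp hq a ⟨by omega, by omega⟩ ⟨by omega, by omega⟩ fun f => ?_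
    have := (side_sl a').symm.trans (f ▸ side_sl a' : sw (B p) (B q) = true ↔ _)
    omega

theorem not_crs (h : (S.w p).band ⊆ (S.w q).sd true ∪ (S.w q).band) : ¬Crs (B p) (B q) := by
  have k : ∀ j i : ℤ, ∀ z, Ax R j (i + 1 / 2) z → z ∈ R.bd (B p) → x < i → i < x + 3 → x ≤ j → j ≤ i → False :=
    fun j i z a m h1 h2 h3 h4 => by
      refine (T.hf_true hq).1 (h ((T.bd p hp z).2 m)) ?_
      have := T.ok q hq
      rw [e] at this ⊢
      refine a.mem_D this.1 h3 (by omega) (mem_Iic.2 (abs_le.2 ?_))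
      have := cast_lt h1
      have := cast_lt h2
      unfold cc Bs.r0
      push_cast at *
      exact ⟨by linarith, by linarith⟩
  rw [e]
  obtain ⟨z, hz⟩ := ex_lo R (T.ok p hp)
  rintro (c | c)
  · exact k _ _ z hz (foot_lo (T.ok p hp) hz) c.1 c.2 c.1.le le_rfl
  by_cases a : (B p).arc
  · obtain ⟨z, hz⟩ := ex_hi R (T.ok p hp) a
    exact k _ _ z hz (foot_hi (T.ok p hp) a hz) c.1 c.2 (Int.le_sub_one_of_lt c.1) (by omega)
  · rw [← lo_eq_hi a] at c
    exact k _ _ z hz (foot_lo (T.ok p hp) hz) c.1 c.2 c.1.le le_rfl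

end foot

/-! ### the walls of a scene -/

variable {C : Cx Γ} (G : Tab C.kd κ) {P : Pm Γ} {D : Dt Γ} (h : D.OK P)

/-- the walls of the scene -/
abbrev sy : Sys (C.X h.h0.w).mf.M D.A := (mrk G h.h0.w Subtype.val fun a : D.A => h.ad _ a.2).sys

/-- toric families of the scene -/
abbrev Tr (ts : List Tw) (σ : Set D.A) : Prop :=
  Trc (C.rz h.h0.w) (sy G h) ((C.rz h.h0.w).tws ts) (fun a => a.1.b) σ

theorem tr {ts : List Tw} {σ : Set D.A} (k : ∀ a ∈ σ, Utw ts a.1) : Tr G h ts σ := trc_mark _ G _ _ k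

theorem tr_one (a : D.A) : Tr G h a.1.tw {b | b = a ∨ IsL D.F.ls b.1} :=
  tr G h fun _ k => k.elim (fun e => e ▸ utw_self _ _)
    fun k => utw_off k.1 fun t ht => off_of_away ((h.ad _ a.2).2 t ht) k.2

theorem utw_cell {ts : List Tw} {s : Finset Wl} (k : D.F.Pops ts s) (e : ∀ a ∈ s, (pops ts a).tw = []) {a : Wl}
    (ha : a ∈ s ∨ IsL (D.F.fz ∪ D.F.ls) a) : Utw ts a :=
  ha.elim (fun q => utw_pops k q (e _ q)) fun q => utw_off q.1 fun _ ht =>
    (Finset.mem_union.1 q.2).elim ((pops_mem k ht).2.1 _) (off_of_away (pops_mem k ht).2.2)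

variable {G}

theorem ext_b {s s' : Finset Bs} {a a' : D.A} (k : IsL s a.1) (k' : IsL s' a'.1) (e : a.1.b = a'.1.b) : a = a' := by
  obtain ⟨⟨_, _⟩, _⟩ := a
  obtain ⟨⟨_, _⟩, _⟩ := a'
  cases e; cases k.1; cases k'.1; rfl

theorem eta_b {s : Finset Bs} {a : Wl} (k : IsL s a) : (a.b : Wl) = a := by
  obtain ⟨_, _⟩ := a
  cases k.1; rfl

section
include h

theorem le_hi (a : D.A) : a.1.b.lo ≤ a.1.b.hi := (OK_hi (h.ad _ a.2).1.1).1

theorem ls_arc {l : Bs} (hl : l ∈ D.F.ls) : l.arc ∧ ¬l.pin ∧ l.hi = l.lo + 3 := by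
  obtain ⟨x, rfl, -⟩ := h.ok.ls l hl
  exact ⟨trivial, id, rfl⟩

theorem sep_fz {a l : Bs} (ha : a ∈ D.F.fz) (hl : l ∈ D.F.ls) : Sep a l := by
  have := h.ok.lf l hl a ha
  obtain ⟨-, x, rfl⟩ := h.ok.fz a ha
  rcases this with k | k | k | k
  exacts [.inl k, .inr (.inl k), k.1.elim, k.2.2.2.elim]

theorem sep_ls {a l : Bs} (ha : a ∈ D.F.ls) (hl : l ∈ D.F.ls) (e : a ≠ l) : Sep a l :=
  (h.ok.ll a ha l hl e).imp (fun _ => by omega) fun _ => .inl (by omega)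

/-- a wall compatible with a lens arc lies outside -/
theorem sep_of_cmp {a l : D.A} (hl : IsL D.F.ls l.1) (e : a ≠ l) (c : (sy G h).Cmp a l) : Sep a.1.b l.1.b := by
  rcases h.cov _ a.2 with ⟨p, hp, k⟩ | k
  swap
  · exact (Finset.mem_union.1 k.2).elim (sep_fz h · hl.2) (sep_ls h · hl.2 fun q => e (ext_b k hl q))
  have g := (h.mem p hp).2.2
  obtain ⟨ts, -, -, t⟩ := g.tor
  obtain ⟨x, e', h1, h2, h3⟩ := h.ok.ls _ hl.2
  rcases t.ls _ (Finset.mem_image_of_mem _ k) _ hl.2 with q | q | q | q | q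
  · exact absurd (ext_b (s := D.F.ls) ⟨(g.okn _ k).2.resolve_left (q ▸ (ls_arc h hl.2).2.1), q ▸ hl.2⟩ hl q) e
  · refine absurd c (crs_not_cmp (tr_one G h a) (.inl rfl) (.inr hl) e' q ?_)
    have n := h.nin _ a.2 _ hl.2
    have o := (h.ad _ a.2).1.1
    have u1 := h3 (x + 1) (by omega) (by omega)
    have u2 := h3 (x + 2) (by omega) (by omega)
    rw [lrd, if_neg (by omega), if_pos (by omega)] at u1 u2
    rw [e'] at n
    generalize a.1.b = b at n o
    rintro ⟨a1, a2, a3⟩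
    cases b with
    | sA y y' =>
      obtain rfl : y = _ := a2; obtain rfl : y' = _ := a3
      have := o.2
      rw [u1, u2] at this
      simp [Rod53.Uni, Rod53.dt, Sl.l, Sl.r] at this
    | rA y y' => obtain rfl : y = _ := a2; obtain rfl : y' = _ := a3; exact n rfl
    | lA y y' =>
      obtain rfl : y = _ := a2; obtain rfl : y' = _ := a3
      have := o.2
      rw [u1, u2] at this
      simp [Rod53.dt, Sl.l, Sl.r] at this
    | _ => exact a1
  exacts [.inl (by omega), .inr (.inl (by omega)), .inr (.inr q)]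

theorem sub_of_sep {a l : D.A} (hl : IsL D.F.ls l.1) (k : Sep a.1.b l.1.b) :
    ((sy G h).w a).band ⊆ ((sy G h).w l).sd true ∧ (sy G h).Cmp a l :=
  have q := (ls_arc h hl.2).1
  ⟨k.sw q (le_hi h a) ▸ (tr_one G h a).far_sd (.inr hl) (.inl rfl) (far_symm (k.far q)),
    (tr_one G h a).cmp (.inl rfl) (.inr hl) (k.far q)⟩

theorem far_fz {a b : Bs} (ha : a ∈ D.F.fz) (hb : b ∈ D.F.fz) (e : a ≠ b) : a.Far b := by
  obtain ⟨-, x, rfl⟩ := h.ok.fz a ha
  obtain ⟨-, y, rfl⟩ := h.ok.fz b hb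
  exact (lt_or_gt_of_ne fun q => e (congrArg _ q)).imp_right .inl

end

theorem fl_fl (l : Bs) (n : Wd38.Wt) : fl l (fl l n) = n := by
  obtain ⟨a, b, c, d⟩ := n
  simp only [fl, Wd38.Wt.mk.injEq, and_true]
  constructor <;> funext j <;> split_ifs <;> simp

theorem sgl_fl {l : Bs} {n : Wd38.Wt} (e : l.hi = l.lo + 3) (k : n.nl (l.lo + 1) = 0 ∨ n.nl (l.lo + 1) = 1) :
    sgl l (fl l n) = !sgl l n := by
  have : (fl l n).nl (l.lo + 1) = _ := if_pos (by omega)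
  rcases k with u | u <;> simp [sgl, this, u]

theorem sgl_fl' {l l' : Bs} {n : Wd38.Wt} (e : ¬(l.lo < l'.lo + 1 ∧ l'.lo + 1 < l.hi)) :
    sgl l' (fl l n) = sgl l' n := by
  have : (fl l n).nl (l'.lo + 1) = _ := if_neg e
  simp [sgl, this]

theorem mem_fil {s : Finset Bs} {a : D.A} : a ∈ ({a | IsL s a.1} : Finset D.A) ↔ IsL s a.1 := by simp

variable (L : LP C G P lam) (μ : ℤ × ℤ)

theorem fl_eq {l : D.A} (k : IsL D.F.ls l.1) (i : (L.scn h μ).L) :
    (L.scn h μ).fl l i = ⟨fl l.1.b i.1, h.fl _ k.2 _ i.2⟩ := dif_pos k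

/-- **BR-OK** -/
theorem okStmt : OkStmt L := by
  intro D h μ
  have ml : ∀ {a : D.A}, a ∈ (L.scn h μ).ls → IsL D.F.ls a.1 := fun k => (Finset.mem_filter.1 k).2
  have mz : ∀ {a : D.A}, a ∈ (L.scn h μ).fz → IsL D.F.fz a.1 := fun k => (Finset.mem_filter.1 k).2
  refine ⟨(C.rz h.h0.w).mark_spare G _ _ L.e L.sp, fun i => ?_, fun a ha => ⟨fun k => ?_, fun k => ?_, fun l hl =>
    sub_of_sep h (ml hl) (sep_fz h (mz ha).2 (ml hl).2)⟩, ?_, fun i σ ⟨p, a, b, c⟩ τ k => ⟨p, a, b, fun a q => c a (k q)⟩,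
    fun l hl k => (ls_arc h (ml hl).2).2.1 (Bs.ty_sph.1 k), fun l hl l' hl' e => ?_,
    fun l hl a e c => (sub_of_sep (G := G) h (ml hl) (sep_of_cmp h (ml hl) e c)).1, fun l hl i => ?_, fun l hl i => ?_,
    fun l hl l' hl' e i => ?_, fun l hl i σ ⟨p, a, b, c⟩ k => ?_, fun _ => rfl, fun l i => ?_,
    fun l => L.img h.h0 (h.uw l.1) _, fun l hl i => ?_, fun l i => L.rel h.h0 i.1 (h.uw l.1) _,
    (tr G h fun a q => utw_nil (mz q).1).cell fun a q b q' n => far_fz h (mz q).2 (mz q').2 fun u =>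
      n (ext_b (mz q) (mz q') u), fun l hl i => ?_⟩
  · obtain ⟨e, he⟩ := L.spl h.h0 (h.l0 i) μ
    exact ⟨e, fun a => he (h.uw a)⟩
  · obtain ⟨-, x, e⟩ := h.ok.fz _ (mz ha).2
    exact (e ▸ Bs.ty_sph.1 k : (Bs.yS x).pin)
  · obtain ⟨-, x, e⟩ := h.ok.fz _ (mz ha).2
    exact (e ▸ (ls_arc h (ml k).2).1 : (Bs.yS x).arc)
  · rintro i σ ⟨p, hp, -, c⟩
    have g := (h.mem p hp).2.2
    obtain ⟨ts, k, e, t⟩ := g.tor
    have m := fun a q => Finset.mem_image_of_mem Wl.b (c a q)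
    refine ⟨(tr G h fun a q => utw_cell k e (q.imp (c a) fun q =>
      ⟨(mz q).1, Finset.mem_union_left _ (mz q).2⟩)).cell ?_, Finset.disjoint_left.2 fun a q q' =>
        not_far_self (le_hi h a) (t.fz _ (m a q) _ (mz q').2)⟩
    rintro a (q | q) b (q' | q') n
    · exact t.far _ (m a q) _ (m b q') fun u => n (Subtype.ext (g.inj (c a q) (c b q') u))
    · exact t.fz _ (m a q) _ (mz q').2
    · exact far_symm (t.fz _ (m b q') _ (mz q).2)
    · exact far_fz h (mz q).2 (mz q').2 fun u => n (ext_b (mz q) (mz q') u)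
  · have n : l.1.b ≠ l'.1.b := fun u => e (ext_b (ml hl) (ml hl') u)
    have s := sep_ls h (ml hl).2 (ml hl').2 n
    exact (tr_one G h l).hf_disj (.inl rfl) (.inr (ml hl')) (s.far (ls_arc h (ml hl').2).1)
      ((sep_ls h (ml hl').2 (ml hl).2 n.symm).sw (ls_arc h (ml hl).2).1 (le_hi h l'))
      (s.sw (ls_arc h (ml hl').2).1 (le_hi h l))
  · rw [fl_eq h L μ (ml hl), fl_eq h L μ (ml hl) i]
    exact Subtype.ext (fl_fl _ _)
  · rw [fl_eq h L μ (ml hl) i]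
    exact sgl_fl (ls_arc h (ml hl).2).2.2 ((h.lok _ i.2).ls _ (ml hl).2).2.2
  · rw [fl_eq h L μ (ml hl) i]
    have := (ls_arc h (ml hl).2).2.2
    have := (ls_arc h (ml hl').2).2.2
    have := h.ok.ll _ (ml hl).2 _ (ml hl').2 fun u => e (ext_b (ml hl) (ml hl') u)
    exact sgl_fl' (by omega)
  · rw [fl_eq h L μ (ml hl) i]
    exact ⟨_, h.kfl _ (ml hl).2 p a ((eta_b (ml hl)).symm ▸ c l k), congrArg (fl l.1.b) b, c⟩
  · have k := L.ins h.h0 (h.l0 i) μ (h.uw l.1) (ml l.2)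
    exact ⟨k.op, k.sub, k.uni, k.LY, k.m⟩
  · rw [fl_eq h L μ (ml hl) i]
    have k := L.out h.h0 (h.l0 i) μ (h.uw l) (ml hl) (h.l0 ⟨_, h.fl _ (ml hl).2 _ i.2⟩)
    obtain ⟨x, e, -⟩ := h.ok.ls _ (ml hl).2
    have n := fun a : (L.scn h μ).Ou l => not_crs (tr_one G h a.1) (.inl rfl) (.inr (ml hl)) e a.2
    exact ⟨k.op, k.sub, k.uni, fun a => k.LY ⟨h.uw a.1, n a⟩, fun a => k.m ⟨h.uw a.1, n a⟩⟩
  · rw [fl_eq h L μ (ml hl) i]
    exact lv L h.h0 (h.l0 i) μ (h.uw l) (ml hl) (h.l0 ⟨_, h.fl _ (ml hl).2 _ i.2⟩)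

end Crest.Agent.X212.Br33
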