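import Crest.Agent.X212.Br33.Ok
import Crest.Agent.X212.Line51.Wd2

/-!
# Row 212, layer G (helper33): the pieces of a scene are images of toric pieces (BR-PRES)
-/

set_option autoImplicit false
set_option linter.unusedSectionVars false
noncomputable section
open Set Function

namespace Crest.Agent.X212.Br33
open M G75 Wd38 Nm96 Cyl58 Br55
open Sid48 hiding chg

variable {Γ : Nm} {κ lam : Type} [Fintype κ] [Fintype lam] [DecidableEq lam]

theorem utw_j {C : Cx Γ} {w : Shp Γ} {hw : w.OK} {X : TP V4} (R : Rz C hw X) {l : List Tw} {a : Wl}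
    (h : Utw l a) (k : a.b.OK w) (q) : R.tws l ((R.nk a.b k).j q) = (R.bn a k).j q := by
  induction h with
  | nil b => rfl
  | use t _ ih => exact congrArg (R.tw t) (ih k q)
  | @clr l a t _ c ih => exact (congrArg (R.tw t) (ih k q)).trans (R.tw_off _
      (disjoint_right.1 (R.K_clr c) (R.range_bn a k ▸ mem_range_self q)))

theorem lok_acts {P : Pm Γ} {w : Shp Γ} {ls : Finset Bs} (h : (f0 w ls).OK P) : ∀ {ts : List Tw} {n : Wd38.Wt},
    (∀ t ∈ ts, t.OK w ∧ Away ls t) → (f0 w ls).LOK P n → (f0 w ls).LOK P (acts w ts n)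
  | [], _, _, k => k
  | t :: ts, n, e, k => by
    have q := e t List.mem_cons_self
    refine lok_acts h (ts := ts) (n := t.act w n) (fun t' u => e t' (List.mem_cons_of_mem _ u))
      ⟨Line51.act_ok k.ok q.1, k.mL, k.mR, fun l hl => ?_⟩
    have := q.2 l hl
    have u := k.ls l hl
    obtain ⟨x, rfl, -⟩ := h.ls l hl
    simp only [Bs.lo, Bs.hi] at *
    rwa [(Line51.act_out (by omega)).1, (Line51.act_out (by omega)).1, (Line51.act_out (by omega)).1]

section pc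
variable {C : Cx Γ} {w : Shp Γ} {hw : w.OK} {X : TP V4} {R : Rz C hw X} {A : Type} [DecidableEq A]
  {S : Sys X.P.M A} {Φ : X.P.M → X.P.M} {B : A → Bs} {τ : Set A} {c : Finset A} {π : Reg A} {η : Bs → Bool} {a : A}

theorem adj_iff {b : Bs} : Adj (c.image B) η b ↔ ∀ a ∈ c, B a ≠ b → sw (B a) b = η (B a) := by
  simp only [Adj, InV, Finset.mem_erase, Finset.mem_image]
  exact ⟨fun k a ha e => k _ ⟨e, a, ha, rfl⟩, by rintro k _ ⟨e, a, ha, rfl⟩; exact k a ha e⟩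

theorem exists_eta (hc : S.Cell c) (hπ : S.Piece c π) (hi : InjOn B c) [ConnectedSpace X.P.M] :
    ∃ η : Bs → Bool, ∀ y, y ∈ S.U π ↔ ∀ a ∈ c, y ∈ (S.w a).sd (η (B a)) := by
  classical
  have k : ∀ a ∈ c, S.U π ⊆ (S.w a).sd (decide (∃ a' ∈ c, B a' = B a ∧ S.U π ⊆ (S.w a').sd true)) := fun a ha => by
    by_cases e : ∃ a' ∈ c, B a' = B a ∧ S.U π ⊆ (S.w a').sd true
    · rw [decide_eq_true e]
      obtain ⟨a', q, e, u⟩ := e
      exact hi q ha e ▸ u
    · rw [decide_eq_false e]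
      obtain ⟨_ | _, u⟩ := hπ.side hc ha
      exacts [u, absurd ⟨a, ha, rfl, u⟩ e]
  refine ⟨fun b => decide (∃ a' ∈ c, B a' = b ∧ S.U π ⊆ (S.w a').sd true), fun y => ⟨fun q a ha => k a ha q,
    fun q a s e => ?_⟩⟩
  have ha := hπ.bd_subset (Sys.mem_bd_of e)
  obtain ⟨x, hx⟩ := hπ.toIsReg.nonempty
  exact (S.w a).sd_inj (k a ha hx) (hx a s e) ▸ q a ha

variable (T : Trc R S Φ B τ) (hc : ↑c ⊆ τ) (hU : ∀ y, y ∈ S.U π ↔ ∀ a ∈ c, y ∈ (S.w a).sd (η (B a)))
include T hc hU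

theorem adj_of (ha : a ∈ τ) (f : ∀ a' ∈ c, B a' ≠ B a → (B a').Far (B a)) {x} (k : x ∈ (S.w a).band)
    (k' : x ∈ S.U π) : Adj (c.image B) η (B a) :=
  adj_iff.2 fun a' q e => (S.w a').sd_inj (T.far_sd (hc q) ha (f a' q e) k) ((hU x).1 k' a' q)

theorem image_pc : Φ '' pc R (c.image B) η = S.U π := by
  have e : ∀ z, Φ z ∈ S.U π ↔ z ∈ pc R (c.image B) η := fun z => (hU _).trans
    ((forall₂_congr fun a q => T.sd a (hc q) _ z).trans (Finset.forall_mem_image (p := fun b => z ∈ sd R b (η b))).symm)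
  refine Subset.antisymm (by rintro _ ⟨z, k, rfl⟩; exact (e z).2 k) fun y k => ?_
  obtain ⟨z, rfl⟩ := T.bij.2 y
  exact ⟨z, (e z).1 k, rfl⟩

variable (hπ : S.Piece c π)
include hπ

theorem inn_iff (ha : a ∈ τ) (n : a ∉ c) (f : ∀ a' ∈ c, (B a').Far (B a)) :
    a ∈ S.inn π ↔ Adj (c.image B) η (B a) := by
  refine ⟨fun k => ?_, fun k => ⟨by_contra fun e => n (hπ.bd_subset e), fun x hx => (hU x).2 fun a' q => ?_,
    fun a' q => (T.cmp (hc (hπ.bd_subset q)) ha (f a' (hπ.bd_subset q))).symm⟩⟩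
  · obtain ⟨x, hx, -⟩ := (S.w a).ne true
    exact adj_of T hc hU ha (fun a' q _ => f a' q) hx (k.2.1 hx)
  · exact adj_iff.1 k a' q (fun e => not_far_self (OK_hi (T.ok a ha)).1 (e ▸ f a' q)) ▸ T.far_sd (hc q) ha (f a' q) hx

theorem some_iff (hf : ∀ a ∈ c, ∀ a' ∈ c, a ≠ a' → (B a).Far (B a')) (s : Bool) :
    π a = some s ↔ a ∈ c ∧ Adj (c.image B) η (B a) ∧ η (B a) = s := by
  have := R.con
  obtain ⟨x, hx⟩ := (S.w a).ne s
  refine ⟨fun e => ?_, fun ⟨q, k, e⟩ => hπ.eq_some (T.mono hc |>.cell hf) q ((hU x).2 fun a' q' => ?_) hx⟩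
  · have q := hπ.bd_subset (Sys.mem_bd_of e)
    have u := hπ.adj a s e hx
    exact ⟨q, adj_of T hc hU (hc q) (fun a' q' n => hf a' q' a q fun e => n (e ▸ rfl)) hx.1 u,
      (S.w a).sd_inj ((hU x).1 u a q) hx.2⟩
  · by_cases n : a' = a
    · rw [n, e]; exact hx.2
    · have f := hf a' q' a q n
      exact adj_iff.1 k a' q' (fun e => not_far_self (OK_hi (T.ok a (hc q))).1 (e ▸ f)) ▸
        T.far_sd (hc q') (hc q) f hx.1

end pc

theorem ncard_eq {A : Type} {s : Set A} {t : Finset Bs} {B : A → Bs} (hi : InjOn B s) (e : ∀ b, b ∈ t ↔ b ∈ B '' s) :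
    s.ncard = t.card := by
  rw [← hi.ncard_image, ← ncard_coe_finset, Set.ext (a := (t : Set Bs)) e]

variable {C : Cx Γ} {G : Tab C.kd κ} {P : Pm Γ} (L : LP C G P lam)

/-- **BR-PRES** -/
theorem presStmt (tw : TwStmt L) : PresStmt L := by
  intro D h μ i σ c π ts hc pin inj pp tn tor hπ
  have := (C.rz h.h0.w).con
  have := (L.scn h μ).M.con
  have ml : ∀ {a : D.A}, a ∈ (L.scn h μ).ls → IsL D.F.ls a.1 := fun k => (Finset.mem_filter.1 k).2
  have ut : ∀ a : D.A, a ∈ σ ∨ IsL (D.F.fz ∪ D.F.ls) a.1 → Utw ts a.1 := fun a q =>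
    utw_cell pp (fun _ u => by obtain ⟨b, v, rfl⟩ := Finset.mem_map.1 u; exact tn b v)
      (q.imp_left (Finset.mem_map_of_mem _))
  have T := tr G h (σ := {a | a ∈ σ ∨ IsL (D.F.fz ∪ D.F.ls) a.1}) ut
  have sub : ↑c ⊆ {a : D.A | a ∈ σ ∨ IsL (D.F.fz ∪ D.F.ls) a.1} := fun a q => .inl (hc q)
  have iσ : InjOn (fun a : D.A => a.1.b) σ := fun a q a' q' e =>
    Subtype.ext (inj (Finset.mem_map_of_mem _ q) (Finset.mem_map_of_mem _ q') e)
  have im := fun a (q : a ∈ σ) => Finset.mem_image_of_mem (fun a : D.A => a.1.b) q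
  have far : ∀ a ∈ σ, ∀ a' ∈ σ, a ≠ a' → a.1.b.Far a'.1.b := fun a q a' q' n =>
    tor.far _ (im a q) _ (im a' q') fun e => n (iσ q q' e)
  have fc := fun a q a' q' => far a (hc q) a' (hc q')
  have cl := (T.mono sub).cell fc
  obtain ⟨η, hU⟩ := exists_eta (X := C.X h.h0.w) cl hπ (iσ.mono hc)
  have sd := fun a => some_iff T sub hU hπ (a := a) fc
  have tm := fun t k => let q := pops_mem (t := t) pp k; And.intro q.1 q.2.2
  obtain ⟨m, hm⟩ := tw h.h0 μ ts tm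
  have lk := lok_acts h.h0 tm (h.l0 i)
  have lu : ∀ {a : D.A}, IsL D.F.ls a.1 → a ∈ σ ∨ IsL (D.F.fz ∪ D.F.ls) a.1 := fun k =>
    .inr ⟨k.1, Finset.mem_union_right _ k.2⟩
  have il : InjOn (fun a : D.A => a.1.b) {a | a ∈ (L.scn h μ).ls} := fun a q a' q' => ext_b (ml q) (ml q')
  refine ⟨η, ⟨⟨(C.rz h.h0.w).tws ts, by have := m.pos; rw [hm] at this; exact this, iσ.mono hc, ⟨?_, ?_, ?_, ?_⟩, sd,
    T.mono fun a q => q.imp_left (hc ·), fun a q => utw_j _ (ut a (q.imp (hc ·) fun k =>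
      ⟨k.1, Finset.mem_union_left _ k.2⟩)) _, image_pc T sub hU, L.W h.h0 lk μ, m.u i.1, ?_⟩⟩,
    ncard_eq (iσ.mono inter_subset_left) fun b => ?_, ncard_eq (il.mono inter_subset_left) fun b => ?_, ?_⟩
  · exact Finset.forall_mem_image.2 fun a q => ⟨(h.ad _ a.2).1.1, pin a q⟩
  · exact fun a q b q' => tor.far a (Finset.image_subset_image hc q) b (Finset.image_subset_image hc q')
  · exact fun a q => tor.fz a (Finset.image_subset_image hc q)
  · rcases c.eq_empty_or_nonempty with rfl | ⟨a, q⟩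
    · exact .inl rfl
    refine .inr (by_contra fun n => hπ.not_inn a q ?_)
    obtain rfl : π = top _ := funext fun a => Option.eq_none_iff_forall_ne_some.2 fun s e =>
      n ⟨_, Finset.mem_image_of_mem _ ((sd a s).1 e).1, ((sd a s).1 e).2.1⟩
    exact (Sys.inn_top _).ge trivial
  · have := m.uni i.1 lk (h.l0 i)
    rw [hm, L.p] at this
    exact this
  · rw [Finset.mem_filter, Finset.mem_sdiff]
    constructor
    · rintro ⟨⟨q', n⟩, k⟩
      obtain ⟨a, q, rfl⟩ := Finset.mem_image.1 q'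
      have n' : a ∉ c := fun u => n (Finset.mem_image_of_mem _ u)
      exact ⟨a, ⟨q, (inn_iff T sub hU hπ (.inl q) n' fun a' u => far a' (hc u) a q (ne_of_mem_of_not_mem u n')).2 k⟩, rfl⟩
    · rintro ⟨a, ⟨q, k⟩, rfl⟩
      have n' : a ∉ c := fun u => hπ.not_inn a u k
      refine ⟨⟨im a q, fun u => ?_⟩,
        (inn_iff T sub hU hπ (.inl q) n' fun a' u => far a' (hc u) a q (ne_of_mem_of_not_mem u n')).1 k⟩
      obtain ⟨a', u, e⟩ := Finset.mem_image.1 u
      exact n' (iσ (hc u) q e ▸ u)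
  · rw [Finset.mem_filter]
    constructor
    · rintro ⟨q, f, k⟩
      have u : IsL D.F.ls (⟨b, h.ls b q⟩ : D.A).1 := ⟨rfl, q⟩
      have f' := Finset.forall_mem_image.1 f
      exact ⟨_, ⟨mem_fil.2 u, (inn_iff T sub hU hπ (lu u) (fun v => not_far_self (le_hi h _) (f' v))
        fun _ v => f' v).2 k⟩, rfl⟩
    · rintro ⟨a, ⟨q, k⟩, rfl⟩
      have n' : a ∉ c := fun u => hπ.not_inn a u k
      have f : ∀ a' ∈ c, a'.1.b.Far a.1.b := fun a' u => by
        refine (sep_of_cmp (G := G) h (ml q) (ne_of_mem_of_not_mem u n') ?_).far (ls_arc h (ml q).2).1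
        by_cases e : π a' = none
        · exact ((hπ.toIsReg.outer e (fun b v => cl u (hπ.bd_subset v) fun o => v (o ▸ e))
            (hπ.not_inn a' u)).1.mono_left k.2.1).symm
        · exact (k.2.2 a' e).symm
      exact ⟨(ml q).2, Finset.forall_mem_image.2 f, (inn_iff T sub hU hπ (lu (ml q)) n' f).1 k⟩
  · rw [Fm.nd, ← ncard_coe_finset]
    refine ncard_le_ncard_of_injOn (fun a => a.1.b) (fun l ⟨q, a, u, n⟩ => Finset.mem_coe.2 (Finset.mem_filter.2
      ⟨(ml q).2, _, Finset.mem_image_of_mem _ u, fun f => n (T.cmp (sub u) (lu (ml q)) f)⟩))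
      (il.mono fun _ k => k.1) (Finset.finite_toSet _)

end Crest.Agent.X212.Br33
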